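import Vale.Agent.PT.PF

/-! Typed polynomial-time functions, with `fun_prop` support.  Naturals are unary. -/

namespace Vale.Agent.PT

open Function

/-- A representation of a type by finitely many strings. -/
class Ctx (Γ : Type) (α : Type) where
  ι : Type
  fin : Fintype ι
  enc : α → ι → List Γ

attribute [instance] Ctx.fin

variable {Γ : Type}

instance ctxList : Ctx Γ (List Γ) := ⟨Unit, inferInstance, fun l _ => l⟩

instance ctxNat [Inhabited Γ] : Ctx Γ ℕ := ⟨Unit, inferInstance, fun n _ => List.replicate n default⟩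

instance ctxBool [Inhabited Γ] : Ctx Γ Bool :=
  ⟨Unit, inferInstance, fun b _ => cond b [default] []⟩

instance ctxUnit : Ctx Γ Unit := ⟨Empty, inferInstance, fun _ i => i.elim⟩

instance ctxProd {α β : Type} [Ctx Γ α] [Ctx Γ β] : Ctx Γ (α × β) :=
  ⟨Ctx.ι Γ α ⊕ Ctx.ι Γ β, inferInstance, fun x => Sum.elim (Ctx.enc x.1) (Ctx.enc x.2)⟩

/-- Size of the representation. -/
def size (Γ : Type) {α : Type} [Ctx Γ α] (a : α) : ℕ := sz (Ctx.enc (Γ := Γ)) a

@[simp] theorem size_list (l : List Γ) : size Γ l = l.length := by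
  change ∑ _ : Unit, l.length = _
  simp

@[simp] theorem size_nat [Inhabited Γ] (n : ℕ) : size Γ n = n := by
  change ∑ _ : Unit, (List.replicate n (default : Γ)).length = n
  simp

@[simp] theorem size_prod {α β : Type} [Ctx Γ α] [Ctx Γ β] (x : α × β) :
    size Γ x = size Γ x.1 + size Γ x.2 := by
  change ∑ i : Ctx.ι Γ α ⊕ Ctx.ι Γ β, (Sum.elim (Ctx.enc x.1) (Ctx.enc x.2) i : List Γ).length = _
  simp [size, sz, Fintype.sum_sum_type]

/-- Polynomial-time functions between represented types. -/
@[fun_prop]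
def PT (Γ : Type) {α β : Type} [Ctx Γ α] [Ctx Γ β] (f : α → β) : Prop :=
  ∀ j, PF (Ctx.enc (Γ := Γ) (α := α)) fun a => Ctx.enc (f a) j

namespace PT

variable {α β γ : Type} [Ctx Γ α] [Ctx Γ β] [Ctx Γ γ]

theorem list_iff {f : α → List Γ} : PT Γ f ↔ PF (Ctx.enc (Γ := Γ) (α := α)) f :=
  ⟨fun h => h (), fun h _ => h⟩

theorem size_pb {f : α → β} (h : PT Γ f) : PB (fun a => size Γ (f a)) (size Γ) :=
  PB.sum _ fun j _ => (h j).length

@[fun_prop] theorem id' : PT Γ fun a : α => a := fun j => PF.proj _ j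

@[fun_prop] theorem const (b : β) : PT Γ fun _ : α => b := fun _ => PF.const _ _

@[fun_prop] theorem comp {f : β → γ} {g : α → β} (hf : PT Γ f) (hg : PT Γ g) :
    PT Γ fun a => f (g a) := fun j => (hf j).comp g hg

@[fun_prop] theorem pair {f : α → β} {g : α → γ} (hf : PT Γ f) (hg : PT Γ g) :
    PT Γ fun a => (f a, g a) := fun j => by
  cases j with
  | inl j => exact hf j
  | inr j => exact hg j

@[fun_prop] theorem fst {f : α → β × γ} (hf : PT Γ f) : PT Γ fun a => (f a).1 :=
  fun j => hf (Sum.inl j)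

@[fun_prop] theorem snd {f : α → β × γ} (hf : PT Γ f) : PT Γ fun a => (f a).2 :=
  fun j => hf (Sum.inr j)

theorem congr {f g : α → β} (hf : PT Γ f) (h : ∀ a, f a = g a) : PT Γ g :=
  (funext h : f = g) ▸ hf

@[fun_prop] theorem append {f g : α → List Γ} (hf : PT Γ f) (hg : PT Γ g) :
    PT Γ fun a => f a ++ g a := list_iff.2 ((list_iff.1 hf).append (list_iff.1 hg))

theorem cons (c : Γ) {f : α → List Γ} (hf : PT Γ f) : PT Γ fun a => c :: f a :=
  list_iff.2 ((list_iff.1 hf).cons c)

@[fun_prop] theorem tail {f : α → List Γ} (hf : PT Γ f) : PT Γ fun a => (f a).tail :=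
  list_iff.2 (list_iff.1 hf).tail

variable [Fintype Γ]

theorem casesHead {g : α → List Γ} (hg : PT Γ g) {F : Option Γ → α → β} (hF : ∀ o, PT Γ (F o)) :
    PT Γ fun a => F (g a).head? a := fun j =>
  PF.cases (list_iff.1 hg) (F := fun o a => Ctx.enc (F o a) j) fun o => hF o j

/-- Bounded recursion on a list, with a string value. -/
theorem listRec {y : α → List Γ} (hy : PT Γ y) (G : α → List Γ → List Γ)
    (h0 : PT Γ fun a => G a []) (H : Γ → α × List Γ × List Γ → List Γ) (hH : ∀ c, PT Γ (H c))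
    (hG : ∀ a c P, G a (c :: P) = H c (a, P, G a P))
    (hb : ∃ Bd : α → ℕ, PB Bd (size Γ) ∧ ∀ a P, P <:+ y a → (G a P).length ≤ Bd a) :
    PT Γ fun a => G a (y a) := by
  obtain ⟨Bd, hBd, hb⟩ := hb
  refine list_iff.2 (PF.listRec (list_iff.1 hy) G (list_iff.1 h0) H (fun c => ?_) hG Bd hBd hb)
  refine (list_iff.1 (hH c)).weaken id
    (Sum.elim (fun i => some (some i)) (Sum.elim (fun _ => none) fun _ => some none)) ?_
  rintro x (i | _ | _) <;> rfl

variable [Inhabited Γ]

omit [Fintype Γ] in
theorem toUnary {f : α → ℕ} (hf : PT Γ f) : PT Γ fun a => List.replicate (f a) (default : Γ) :=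
  list_iff.2 (hf ())

omit [Fintype Γ] in
theorem ofUnary {f : α → ℕ} (hf : PT Γ fun a => List.replicate (f a) (default : Γ)) : PT Γ f :=
  fun _ => list_iff.1 hf

@[fun_prop] theorem cond' {c : α → Bool} {f g : α → β} (hc : PT Γ c) (hf : PT Γ f) (hg : PT Γ g) :
    PT Γ fun a => cond (c a) (f a) (g a) := by
  have h1 : PT Γ fun a => (cond (c a) [default] [] : List Γ) := list_iff.2 (hc ())
  refine (casesHead h1 (F := fun o a => cond o.isSome (f a) (g a)) fun o => ?_).congr fun a => ?_
  · cases o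
    · exact hg
    · exact hf
  · cases c a <;> rfl

@[fun_prop] theorem isEmpty {f : α → List Γ} (hf : PT Γ f) : PT Γ fun a => (f a).isEmpty := by
  refine (casesHead hf (F := fun o _ => o.isNone) fun o => const _).congr fun a => ?_
  cases f a <;> rfl

@[fun_prop] theorem length {f : α → List Γ} (hf : PT Γ f) : PT Γ fun a => (f a).length := by
  apply ofUnary
  refine listRec hf (fun _ P => List.replicate P.length default) (const _)
    (fun _ x => default :: x.2.2) (fun _ => cons _ (by fun_prop)) (fun _ _ _ => rfl)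
    ⟨_, hf.size_pb, fun a P hP => by simpa using hP.length_le⟩

/-- Bounded recursion on a natural number, with a string value. -/
theorem natRec {m : α → ℕ} (hm : PT Γ m) (G : α → ℕ → List Γ) (h0 : PT Γ fun a => G a 0)
    (H : α × ℕ × List Γ → List Γ) (hH : PT Γ H) (hG : ∀ a i, G a (i + 1) = H (a, i, G a i))
    (hb : ∃ Bd : α → ℕ, PB Bd (size Γ) ∧ ∀ a i, i ≤ m a → (G a i).length ≤ Bd a) :
    PT Γ fun a => G a (m a) := by
  obtain ⟨Bd, hBd, hb⟩ := hb
  have := listRec hm.toUnary (fun a P => G a P.length) h0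
    (fun _ x => H (x.1, x.2.1.length, x.2.2)) (fun _ => by fun_prop) (fun a c P => hG a _)
    ⟨Bd, hBd, fun a P hP => hb a _ (by simpa using hP.length_le)⟩
  simpa using this

/-- Bounded recursion on a natural number, with a natural value. -/
theorem natRecN {m : α → ℕ} (hm : PT Γ m) (G : α → ℕ → ℕ) (h0 : PT Γ fun a => G a 0)
    (H : α × ℕ × ℕ → ℕ) (hH : PT Γ H) (hG : ∀ a i, G a (i + 1) = H (a, i, G a i))
    (hb : ∃ Bd : α → ℕ, PB Bd (size Γ) ∧ ∀ a i, i ≤ m a → G a i ≤ Bd a) :
    PT Γ fun a => G a (m a) := by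
  obtain ⟨Bd, hBd, hb⟩ := hb
  apply ofUnary
  refine natRec hm (fun a i => List.replicate (G a i) default) h0.toUnary
    (fun x => List.replicate (H (x.1, x.2.1, x.2.2.length)) default) (toUnary (by fun_prop))
    (fun a i => by simp [hG]) ⟨Bd, hBd, fun a i hi => by simpa using hb a i hi⟩

omit [Fintype Γ] in
theorem pb {f : α → ℕ} (hf : PT Γ f) : PB f (size Γ) := by simpa using hf.size_pb

omit [Fintype Γ] in
@[fun_prop] theorem add {f g : α → ℕ} (hf : PT Γ f) (hg : PT Γ g) : PT Γ fun a => f a + g a :=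
  ofUnary ((hf.toUnary.append hg.toUnary).congr fun a => List.replicate_append_replicate)

omit [Fintype Γ] in
theorem pred {f : α → ℕ} (hf : PT Γ f) : PT Γ fun a => f a - 1 :=
  ofUnary (hf.toUnary.tail.congr fun a => by simp)

@[fun_prop] theorem sub {f g : α → ℕ} (hf : PT Γ f) (hg : PT Γ g) : PT Γ fun a => f a - g a :=
  natRecN hg (fun a i => f a - i) hf (fun x => x.2.2 - 1) (pred (by fun_prop))
    (fun a i => by simp only; omega) ⟨f, hf.pb, fun a i _ => by omega⟩

@[fun_prop] theorem mul {f g : α → ℕ} (hf : PT Γ f) (hg : PT Γ g) : PT Γ fun a => f a * g a :=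
  natRecN hg (fun a i => f a * i) (by simpa using const 0) (fun x => x.2.2 + f x.1) (by fun_prop)
    (fun a i => by simp only; ring)
    ⟨_, hf.pb.mul hg.pb, fun a i hi => Nat.mul_le_mul_left _ hi⟩

@[fun_prop] theorem pow {f : α → ℕ} (hf : PT Γ f) (k : ℕ) : PT Γ fun a => f a ^ k := by
  induction k with
  | zero => simpa using const 1
  | succ k ih => simpa [pow_succ] using ih.mul hf

@[fun_prop] theorem and' {f g : α → Bool} (hf : PT Γ f) (hg : PT Γ g) :
    PT Γ fun a => f a && g a :=
  (cond' hf hg (const false)).congr fun a => by cases f a <;> rfl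

@[fun_prop] theorem or' {f g : α → Bool} (hf : PT Γ f) (hg : PT Γ g) :
    PT Γ fun a => f a || g a :=
  (cond' hf (const true) hg).congr fun a => by cases f a <;> rfl

@[fun_prop] theorem not' {f : α → Bool} (hf : PT Γ f) : PT Γ fun a => !f a :=
  (cond' hf (const false) (const true)).congr fun a => by cases f a <;> rfl

@[fun_prop] theorem ble {f g : α → ℕ} (hf : PT Γ f) (hg : PT Γ g) :
    PT Γ fun a => Nat.ble (f a) (g a) :=
  (isEmpty (hf.sub hg).toUnary).congr fun a => by
    rw [Bool.eq_iff_iff]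
    simp [Nat.sub_eq_zero_iff_le]

@[fun_prop] theorem beq {f g : α → ℕ} (hf : PT Γ f) (hg : PT Γ g) :
    PT Γ fun a => Nat.beq (f a) (g a) :=
  ((hf.ble hg).and' (hg.ble hf)).congr fun a => by
    rw [Bool.eq_iff_iff]
    simp only [Bool.and_eq_true, Nat.ble_eq, Nat.beq_eq]
    omega

@[fun_prop] theorem mod {f g : α → ℕ} (hf : PT Γ f) (hg : PT Γ g) : PT Γ fun a => f a % g a :=
  natRecN hf (fun a i => i % g a) (by simpa using const 0)
    (fun x => cond (Nat.beq (x.2.2 + 1) (g x.1)) 0 (x.2.2 + 1)) (by fun_prop)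
    (fun a i => by
      simp only
      cases h : Nat.beq (i % g a + 1) (g a)
      · have h' := Nat.ne_of_beq_eq_false h
        rcases Nat.eq_zero_or_pos (g a) with h0 | h0
        · simp [h0]
        · have := Nat.mod_lt i h0
          rw [cond_false, ← Nat.mod_add_mod, Nat.mod_eq_of_lt (by omega)]
      · have h' := Nat.eq_of_beq_eq_true h
        rw [cond_true, ← Nat.mod_add_mod, h', Nat.mod_self])
    ⟨f, hf.pb, fun a i hi => (Nat.mod_le _ _).trans hi⟩

@[fun_prop] theorem div {f g : α → ℕ} (hf : PT Γ f) (hg : PT Γ g) : PT Γ fun a => f a / g a :=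
  natRecN hf (fun a i => i / g a) (by simpa using const 0)
    (fun x => x.2.2 + cond (Nat.beq ((x.2.1 + 1) % g x.1) 0) 1 0) (by fun_prop)
    (fun a i => by
      simp only [Nat.succ_div, Nat.dvd_iff_mod_eq_zero]
      cases h : Nat.beq ((i + 1) % g a) 0
      · simp [Nat.ne_of_beq_eq_false h]
      · simp [Nat.eq_of_beq_eq_true h])
    ⟨f, hf.pb, fun a i hi => (Nat.div_le_self _ _).trans hi⟩

theorem replicate {f : α → ℕ} (hf : PT Γ f) (c : Γ) : PT Γ fun a => List.replicate (f a) c :=
  natRec hf (fun _ i => List.replicate i c) (const _) (fun x => c :: x.2.2)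
    (cons _ (by fun_prop)) (fun _ _ => rfl) ⟨f, hf.pb, fun a i hi => by simpa using hi⟩

theorem count [DecidableEq Γ] [BEq Γ] [LawfulBEq Γ] {f : α → List Γ} (hf : PT Γ f) (c : Γ) :
    PT Γ fun a => (f a).count c := by
  apply ofUnary
  refine listRec hf (fun _ P => List.replicate (P.count c) default) (const _)
    (fun c' x => if c' = c then default :: x.2.2 else x.2.2) (fun c' => ?_) (fun _ c' P => ?_)
    ⟨_, hf.size_pb, fun a P hP => ?_⟩
  · split_ifs
    · exact cons _ (by fun_prop)
    · fun_prop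
  · by_cases h : c' = c
    · simp [h, List.replicate_succ]
    · simp [h, List.count_cons_of_ne h]
  · simpa using List.count_le_length.trans hP.length_le

/-- Concatenation over a range. -/
theorem flatMapRange {m : α → ℕ} (hm : PT Γ m) {g : α → ℕ → List Γ}
    (hg : PT Γ fun x : α × ℕ => g x.1 x.2) : PT Γ fun a => (List.range (m a)).flatMap (g a) := by
  obtain ⟨P, hP, h1, h2⟩ := hg.size_pb.exists_mono
  refine natRec hm (fun a i => (List.range i).flatMap (g a)) (by simpa using const [])
    (fun x => x.2.2 ++ g x.1 x.2.1) (append (by fun_prop)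
      (hg.comp (g := fun x : α × ℕ × List Γ => (x.1, x.2.1)) (by fun_prop)))
    (fun a i => by simp [List.range_succ])
    ⟨fun a => m a * P (size Γ a + m a), hm.pb.mul (h2 ((PB.refl _).add hm.pb)), fun a i hi => ?_⟩
  have : ∀ k ≤ m a, ((List.range k).flatMap (g a)).length ≤ k * P (size Γ a + m a) := by
    intro k hk
    induction k with
    | zero => simp
    | succ k ih =>
      have e1 := ih (by omega)
      have e2 := h1 (a, k)
      have e3 : P (size Γ a + k) ≤ P (size Γ a + m a) := hP (by omega)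
      simp only [size_list, size_prod, size_nat] at e2
      rw [List.range_succ, List.flatMap_append, List.length_append]
      simp only [List.flatMap_cons, List.flatMap_nil, List.append_nil]
      nlinarith
  exact (this i hi).trans (Nat.mul_le_mul_right _ hi)

omit [Inhabited Γ] in
open Turing in
/-- A polynomial-time string function that maps codes of inputs to codes of outputs gives a
polynomial-time `FinTM2` all of whose stack alphabets are finite. -/
theorem toTM2 {A B : Type} (ea : A → List Γ) (eb : B → List Γ) (F : A → B)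
    {Φ : List Γ → List Γ} (hΦ : PT Γ Φ) (h : ∀ a, Φ (ea a) = eb (F a)) :
    ∃ h : TM2ComputableInPolyTime ea eb F, ∀ k, Finite (h.tm.Γ k) :=
  PF.toTM2 ea eb F (((list_iff.1 hΦ).weaken ea id (fun _ _ => rfl)).congr h)

end PT

end Vale.Agent.PT
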