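import Vale.Agent.PT.Machine

/-! Polynomial-time string functions relative to a finite family of input strings, with the
closure properties of Cobham's class. -/

namespace Vale.Agent.PT

open Function

variable {Γ : Type}

/-- `f` is bounded by a polynomial in `g`. -/
def PB {α : Type} (f g : α → ℕ) : Prop := ∃ c d : ℕ, ∀ a, f a ≤ c * (g a + 1) ^ d

namespace PB

variable {α : Type} {f f' g g' : α → ℕ}

theorem of_le (h : PB f' g) (hf : ∀ a, f a ≤ f' a) : PB f g := by
  obtain ⟨c, d, h⟩ := h
  exact ⟨c, d, fun a => (hf a).trans (h a)⟩

theorem refl (g : α → ℕ) : PB g g := ⟨1, 1, fun a => by simp⟩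

theorem const (n : ℕ) (g : α → ℕ) : PB (fun _ => n) g := ⟨n, 0, fun a => by simp⟩

theorem add (h : PB f g) (h' : PB f' g) : PB (fun a => f a + f' a) g := by
  obtain ⟨c, d, h⟩ := h
  obtain ⟨c', d', h'⟩ := h'
  refine ⟨c + c', d + d', fun a => ?_⟩
  have e1 : (g a + 1) ^ d ≤ (g a + 1) ^ (d + d') := Nat.pow_le_pow_right (by omega) (by omega)
  have e2 : (g a + 1) ^ d' ≤ (g a + 1) ^ (d + d') := Nat.pow_le_pow_right (by omega) (by omega)
  calc f a + f' a ≤ c * (g a + 1) ^ d + c' * (g a + 1) ^ d' := add_le_add (h a) (h' a)
    _ ≤ c * (g a + 1) ^ (d + d') + c' * (g a + 1) ^ (d + d') :=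
      add_le_add (Nat.mul_le_mul_left _ e1) (Nat.mul_le_mul_left _ e2)
    _ = _ := by ring

theorem mul (h : PB f g) (h' : PB f' g) : PB (fun a => f a * f' a) g := by
  obtain ⟨c, d, h⟩ := h
  obtain ⟨c', d', h'⟩ := h'
  refine ⟨c * c', d + d', fun a => ?_⟩
  calc f a * f' a ≤ (c * (g a + 1) ^ d) * (c' * (g a + 1) ^ d') := Nat.mul_le_mul (h a) (h' a)
    _ = _ := by ring

theorem pow (h : PB f g) (k : ℕ) : PB (fun a => f a ^ k) g := by
  induction k with
  | zero => simpa using const 1 g
  | succ k ih => simpa [pow_succ] using ih.mul h

theorem trans (h : PB f g) (h' : PB g g') : PB f g' := by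
  obtain ⟨c, d, h⟩ := h
  exact ((const c g').mul ((h'.add (const 1 g')).pow d)).of_le h

theorem comp {β : Type} (h : PB f g) (φ : β → α) : PB (fun b => f (φ b)) (fun b => g (φ b)) := by
  obtain ⟨c, d, h⟩ := h
  exact ⟨c, d, fun b => h _⟩

theorem sum {ι : Type} (s : Finset ι) {F : ι → α → ℕ} (h : ∀ i ∈ s, PB (F i) g) :
    PB (fun a => ∑ i ∈ s, F i a) g := by
  classical
  induction s using Finset.induction_on with
  | empty => simpa using const 0 g
  | insert i s hi ih =>
    simp only [Finset.sum_insert hi]
    exact (h i (Finset.mem_insert_self _ _)).add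
      (ih fun j hj => h j (Finset.mem_insert_of_mem hj))

/-- A polynomial bound is monotone: extract a monotone majorant. -/
theorem exists_mono (h : PB f g) :
    ∃ P : ℕ → ℕ, Monotone P ∧ (∀ a, f a ≤ P (g a)) ∧
      ∀ {β : Type} {u w : β → ℕ}, PB u w → PB (fun b => P (u b)) w := by
  obtain ⟨c, d, h⟩ := h
  refine ⟨fun n => c * (n + 1) ^ d, fun m n hmn => ?_, h, fun hu => ?_⟩
  · exact Nat.mul_le_mul_left _ (Nat.pow_le_pow_left (by omega) _)
  · exact (const c _).mul ((hu.add (const 1 _)).pow d)

end PB

/-- Runs within `T` steps. -/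
def Run (p : Prog Γ) (s s' : St Γ) (T : ℕ) : Prop := ∃ t ≤ T, Exec p s s' t

namespace Run

theorem mono {p : Prog Γ} {s s' : St Γ} {T T' : ℕ} (h : Run p s s' T) (hT : T ≤ T') :
    Run p s s' T' := by
  obtain ⟨t, ht, h⟩ := h
  exact ⟨t, ht.trans hT, h⟩

theorem seq {p q : Prog Γ} {s s1 s2 : St Γ} {T1 T2 : ℕ} (h1 : Run p s s1 T1) (h2 : Run q s1 s2 T2) :
    Run (p.seq q) s s2 (T1 + T2) := by
  obtain ⟨t1, ht1, h1⟩ := h1
  obtain ⟨t2, ht2, h2⟩ := h2
  exact ⟨t1 + t2, add_le_add ht1 ht2, h1.seq h2⟩

theorem skip (s : St Γ) : Run Prog.skip s s 1 := ⟨1, le_rfl, Exec.skip s⟩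

theorem push (r : ℕ) (c : Γ) (s : St Γ) : Run (Prog.push r c) s (update s r (c :: s r)) 1 :=
  ⟨1, le_rfl, Exec.push r c s⟩

theorem pop (r : ℕ) (s : St Γ) : Run (Prog.pop r) s (update s r (s r).tail) 1 :=
  ⟨1, le_rfl, Exec.pop r s⟩

theorem cas {r : ℕ} {f : Option Γ → Prog Γ} {s s' : St Γ} {T : ℕ}
    (h : Run (f (s r).head?) s s' T) : Run (Prog.cas r f) s s' (T + 1) := by
  obtain ⟨t, ht, h⟩ := h
  exact ⟨t + 1, by omega, h.cas⟩

theorem congr {p : Prog Γ} {s s' s'' : St Γ} {T : ℕ} (h : Run p s s' T) (e : s' = s'') :
    Run p s s'' T := e ▸ h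

end Run

/-- Pop the symbols of stack `r` one at a time, running `b c` after popping `c`. -/
def each (r : ℕ) (b : Γ → Prog Γ) : Prog Γ :=
  Prog.loop r (Prog.cas r fun o => match o with
    | none => Prog.skip
    | some c => (Prog.pop r).seq (b c))

theorem each_run (r : ℕ) (b : Γ → Prog Γ) (T : ℕ) (σ : List Γ → St Γ) (y : List Γ)
    (hσ : ∀ l, σ l r = l)
    (hb : ∀ c l, (c :: l) <:+ y → Run (b c) (update (σ (c :: l)) r l) (σ l) T) :
    Run (each r b) (σ y) (σ []) (y.length * (T + 3) + 1) := by
  induction y with
  | nil => exact ⟨1, by simp, Exec.loop0 (hσ [])⟩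
  | cons c l ih =>
    obtain ⟨t2, ht2, h2⟩ := ih fun c' l' h => hb c' l' (h.trans (List.suffix_cons c l))
    have h1 : Run (Prog.cas r fun o => match o with
        | none => Prog.skip
        | some c => (Prog.pop r).seq (b c)) (σ (c :: l)) (σ l) (1 + T + 1) := by
      apply Run.cas
      rw [hσ]
      have := Run.pop r (σ (c :: l))
      rw [hσ] at this
      exact this.seq (hb c l List.suffix_rfl)
    obtain ⟨t1, ht1, h1⟩ := h1
    refine ⟨t1 + t2 + 1, ?_, Exec.loop1 (by rw [hσ]; simp) h1 h2⟩
    simp only [List.length_cons]
    nlinarith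

def clear (r : ℕ) : Prog Γ := each r fun _ => Prog.skip

theorem clear_run (r : ℕ) (s : St Γ) :
    Run (clear r) s (update s r []) ((s r).length * 4 + 1) := by
  have := each_run r (fun _ => Prog.skip) 1 (fun l => update s r l) (s r) (fun l => by simp)
    (fun c l _ => by simpa using Run.skip _)
  simpa [clear] using this

/-- Move stack `r` onto stack `r'`, reversing it. -/
def move (r r' : ℕ) : Prog Γ := each r fun c => Prog.push r' c

theorem move_run {r r' : ℕ} (h : r ≠ r') (s : St Γ) :
    Run (move r r') s (update (update s r []) r' ((s r).reverse ++ s r'))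
      ((s r).length * 4 + 1) := by
  have := each_run r (fun c => Prog.push r' c) 1
    (fun l => update (update s r l) r' (((s r).take ((s r).length - l.length)).reverse ++ s r'))
    (s r) (fun l => by simp [update_of_ne h])
    (fun c l hl => by
      obtain ⟨u, hu⟩ := hl
      refine (Run.push _ _ _).congr ?_
      have e : List.take (u.length + (l.length + 1) - l.length) (u ++ c :: l) = u ++ [c] := by
        rw [List.take_append, List.take_of_length_le (by omega)]
        have : u.length + (l.length + 1) - l.length - u.length = 1 := by omega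
        simp [this]
      funext k
      by_cases h1 : k = r'
      · subst h1
        simp only [update_self, update_of_ne h.symm, ← hu]
        simp [e]
      · by_cases h2 : k = r
        · subst h2; simp [update_of_ne h1]
        · simp [update_of_ne h1, update_of_ne h2])
  simp only [Nat.sub_self, List.take_zero, List.reverse_nil, List.nil_append, update_eq_self,
    List.length_nil, Nat.sub_zero, List.take_length] at this
  exact this

/-- Move stack `r` onto both `r1` and `r2`, reversing it. -/
def move2 (r r1 r2 : ℕ) : Prog Γ := each r fun c => (Prog.push r1 c).seq (Prog.push r2 c)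

theorem move2_run {r r1 r2 : ℕ} (h1 : r ≠ r1) (h2 : r ≠ r2) (h12 : r1 ≠ r2) (s : St Γ) :
    Run (move2 r r1 r2) s
      (update (update (update s r []) r1 ((s r).reverse ++ s r1)) r2 ((s r).reverse ++ s r2))
      ((s r).length * 5 + 1) := by
  have := each_run r (fun c => (Prog.push r1 c).seq (Prog.push r2 c)) 2
    (fun l => update (update (update s r l) r1
      (((s r).take ((s r).length - l.length)).reverse ++ s r1)) r2
      (((s r).take ((s r).length - l.length)).reverse ++ s r2))
    (s r) (fun l => by simp [update_of_ne h1, update_of_ne h2])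
    (fun c l hl => by
      obtain ⟨u, hu⟩ := hl
      refine ((Run.push _ _ _).seq (Run.push _ _ _)).congr ?_
      have e : List.take (u.length + (l.length + 1) - l.length) (u ++ c :: l) = u ++ [c] := by
        rw [List.take_append, List.take_of_length_le (by omega)]
        have : u.length + (l.length + 1) - l.length - u.length = 1 := by omega
        simp [this]
      funext k
      by_cases h3 : k = r2
      · subst h3
        simp only [update_self, update_of_ne h2.symm, update_of_ne h12.symm, ← hu]
        simp [e]
      · by_cases h4 : k = r1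
        · subst h4
          simp only [update_self, update_of_ne h1.symm, update_of_ne h12, ← hu]
          simp [e]
        · by_cases h5 : k = r
          · subst h5; simp [update_of_ne h1, update_of_ne h2]
          · simp [update_of_ne h3, update_of_ne h4, update_of_ne h5])
  simp only [Nat.sub_self, List.take_zero, List.reverse_nil, List.nil_append, update_eq_self,
    List.length_nil, Nat.sub_zero, List.take_length] at this
  exact this

/-- Move stack `r` onto `r'` keeping its order, through the empty stack `tmp`. -/
def shift (r r' tmp : ℕ) : Prog Γ := (move r tmp).seq (move tmp r')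

theorem shift_run {r r' tmp : ℕ} (h : r ≠ r') (h1 : r ≠ tmp) (h2 : r' ≠ tmp) (s : St Γ)
    (hs : s tmp = []) :
    Run (shift r r' tmp) s (update (update s r []) r' (s r ++ s r')) ((s r).length * 8 + 2) := by
  refine (((move_run h1 s).seq (move_run h2.symm _)).congr ?_).mono ?_
  · funext k
    by_cases h3 : k = r'
    · subst h3; simp [update_of_ne h2, update_of_ne h.symm, hs]
    · by_cases h4 : k = tmp
      · subst h4; simp [update_of_ne h3, update_of_ne h1.symm, hs]
      · simp [update_of_ne h3, update_of_ne h4]
  · simp [hs]; omega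

/-- Copy stack `r` onto `r'`, through the empty stack `tmp`. -/
def copy (r r' tmp : ℕ) : Prog Γ := (move r tmp).seq (move2 tmp r r')

theorem copy_run {r r' tmp : ℕ} (h : r ≠ r') (h1 : r ≠ tmp) (h2 : r' ≠ tmp) (s : St Γ)
    (hs : s tmp = []) :
    Run (copy r r' tmp) s (update s r' (s r ++ s r')) ((s r).length * 9 + 2) := by
  refine (((move_run h1 s).seq (move2_run h1.symm h2.symm h _)).congr ?_).mono ?_
  · funext k
    by_cases h3 : k = r'
    · subst h3; simp [update_of_ne h2, update_of_ne h.symm, hs]
    · by_cases h5 : k = r
      · subst h5; simp [update_of_ne h3, update_of_ne h1, hs]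
      · by_cases h4 : k = tmp
        · subst h4; simp [update_of_ne h3, update_of_ne h5, hs]
        · simp [update_of_ne h3, update_of_ne h4, update_of_ne h5]
  · simp [hs]; omega

/-- Total length of the input strings. -/
def sz {α ι : Type} [Fintype ι] (e : α → ι → List Γ) (a : α) : ℕ := ∑ i, (e a i).length

/-- `f a` can be pushed onto any chosen stack in time polynomial in the total length of the
strings `e a i`, when these lie on any chosen stacks and the stacks from `base` on are empty. -/
def PF {α ι : Type} [Fintype ι] (e : α → ι → List Γ) (f : α → List Γ) : Prop :=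
  ∀ (inp : ι → ℕ) (out base : ℕ), (∀ i, inp i < base) → out < base → (∀ i, inp i ≠ out) →
    ∃ (p : Prog Γ) (T : α → ℕ), PB T (sz e) ∧ ∀ (a : α) (s : St Γ), (∀ i, s (inp i) = e a i) →
      (∀ r, base ≤ r → s r = []) → Run p s (update s out (f a ++ s out)) (T a)

namespace PF

variable {α ι : Type} [Fintype ι] {e : α → ι → List Γ} {f g : α → List Γ}

theorem len_le_sz (e : α → ι → List Γ) (i : ι) (a : α) : (e a i).length ≤ sz e a :=
  Finset.single_le_sum (f := fun i => (e a i).length) (fun _ _ => Nat.zero_le _)
    (Finset.mem_univ i)

theorem pb_len (e : α → ι → List Γ) (i : ι) : PB (fun a => (e a i).length) (sz e) :=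
  (PB.refl _).of_le (len_le_sz e i)

theorem length (h : PF e f) : PB (fun a => (f a).length) (sz e) := by
  classical
  let q := Fintype.equivFin ι
  obtain ⟨p, T, hT, h⟩ := h (fun i => (q i).val) (Fintype.card ι) (Fintype.card ι + 1)
    (fun i => by have := (q i).2; omega) (by omega) (fun i => by have := (q i).2; omega)
  refine hT.of_le fun a => ?_
  obtain ⟨t, ht, hx⟩ := h a (fun r => if h : r < Fintype.card ι then e a (q.symm ⟨r, h⟩) else [])
    (fun i => by simp) (fun r hr => by rw [dif_neg (by omega)])
  have := hx.length_le (Fintype.card ι)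
  simp at this
  omega

theorem proj (e : α → ι → List Γ) (i : ι) : PF e fun a => e a i := by
  intro inp out base h1 h2 h3
  refine ⟨copy (inp i) out base, fun a => (e a i).length * 9 + 2,
    ((pb_len e i).mul (PB.const _ _)).add (PB.const _ _), fun a s hs hb => ?_⟩
  have := copy_run (h3 i) (h1 i).ne h2.ne s (hb _ le_rfl)
  rwa [hs] at this

theorem nil (e : α → ι → List Γ) : PF e fun _ => [] := by
  intro inp out base _ _ _
  exact ⟨Prog.skip, fun _ => 1, PB.const _ _, fun a s _ _ => by simpa using Run.skip s⟩

theorem append (hf : PF e f) (hg : PF e g) : PF e fun a => f a ++ g a := by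
  intro inp out base h1 h2 h3
  obtain ⟨p, T, hT, hp⟩ := hf inp out base h1 h2 h3
  obtain ⟨q, U, hU, hq⟩ := hg inp out base h1 h2 h3
  refine ⟨q.seq p, fun a => U a + T a, hU.add hT, fun a s hs hb => ?_⟩
  refine ((hq a s hs hb).seq (hp a _ (fun i => ?_) (fun r hr => ?_))).congr ?_
  · rw [update_of_ne (h3 i), hs]
  · rw [update_of_ne (by omega), hb r hr]
  · simp

theorem cons (c : Γ) (hf : PF e f) : PF e fun a => c :: f a := by
  intro inp out base h1 h2 h3
  obtain ⟨p, T, hT, hp⟩ := hf inp out base h1 h2 h3
  refine ⟨p.seq (Prog.push out c), fun a => T a + 1, hT.add (PB.const _ _), fun a s hs hb => ?_⟩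
  refine ((hp a s hs hb).seq (Run.push _ _ _)).congr ?_
  simp

theorem const (e : α → ι → List Γ) (l : List Γ) : PF e fun _ => l := by
  induction l with
  | nil => exact nil e
  | cons c l ih => exact ih.cons c

theorem congr (hf : PF e f) (h : ∀ a, f a = g a) : PF e g := (funext h : f = g) ▸ hf

/-- Change of abstract input and renaming of the input strings. -/
theorem weaken {β κ : Type} [Fintype κ] {e' : β → κ → List Γ} {f' : β → List Γ} (hf : PF e' f')
    (φ : α → β) (τ : κ → ι) (h : ∀ a j, e' (φ a) j = e a (τ j)) : PF e fun a => f' (φ a) := by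
  intro inp out base h1 h2 h3
  obtain ⟨p, T, hT, hp⟩ := hf (fun j => inp (τ j)) out base (fun j => h1 _) h2 (fun j => h3 _)
  refine ⟨p, fun a => T (φ a), (hT.comp φ).trans ?_, fun a s hs hb =>
    hp (φ a) s (fun j => by rw [h, hs]) hb⟩
  simp only [sz, h]
  exact PB.sum _ fun j _ => pb_len e (τ j)

/-- Add one more input string. -/
def ext (e : α → ι → List Γ) (g : α → List Γ) : α → Option ι → List Γ :=
  fun a o => match o with
    | none => g a
    | some i => e a i

theorem sz_ext (e : α → ι → List Γ) (g : α → List Γ) (a : α) :
    sz (ext e g) a = (g a).length + sz e a := by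
  simp [sz, ext, Fintype.sum_option]

theorem let1 (hg : PF e g) (hf : PF (ext e g) f) : PF e f := by
  intro inp out base h1 h2 h3
  obtain ⟨q, U, hU, hq⟩ := hg inp base (base + 1) (fun i => by have := h1 i; omega) (by omega)
    (fun i => (h1 i).ne)
  obtain ⟨p, T, hT, hp⟩ := hf (fun o => o.elim base inp) out (base + 1)
    (fun o => by cases o with
      | none => simp
      | some i => have := h1 i; simp; omega) (by omega)
    (fun o => by cases o with
      | none => simp; omega
      | some i => exact h3 i)
  have hsz : PB (sz (ext e g)) (sz e) := by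
    have := hg.length.add (PB.refl (sz e))
    exact this.of_le fun a => (sz_ext e g a).le
  refine ⟨q.seq (p.seq (clear base)), fun a => U a + (T a + ((g a).length * 4 + 1)),
    hU.add ((hT.trans hsz).add ((hg.length.mul (PB.const _ _)).add (PB.const _ _))),
    fun a s hs hb => ?_⟩
  have r1 := hq a s hs (fun r hr => hb r (by omega))
  rw [hb base le_rfl, List.append_nil] at r1
  have r2 := hp a (update s base (g a)) (fun o => by
    cases o with
    | none => simp [ext]
    | some i => simp [ext, update_of_ne (h1 i).ne, hs])
    (fun r hr => by rw [update_of_ne (by omega), hb r (by omega)])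
  have r3 := clear_run base (update (update s base (g a)) out (f a ++ update s base (g a) out))
  rw [update_of_ne h2.ne', update_self] at r3
  refine (r1.seq (r2.seq r3)).congr ?_
  funext k
  by_cases h4 : k = base
  · subst h4; simp [update_of_ne h2.ne', hb k le_rfl]
  · by_cases h5 : k = out
    · subst h5; simp [update_of_ne h4]
    · simp [update_of_ne h4, update_of_ne h5]

theorem letFin (m : ℕ) : ∀ {ι : Type} [Fintype ι] {e : α → ι → List Γ} (G : Fin m → α → List Γ),
    (∀ j, PF e (G j)) → PF (fun a => Sum.elim (e a) fun j => G j a) f → PF e f := by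
  induction m with
  | zero =>
    intro ι _ e G _ hf
    exact hf.weaken id (Sum.elim id Fin.elim0) (fun a j => by
      cases j with
      | inl i => rfl
      | inr j => exact j.elim0)
  | succ m ih =>
    intro ι _ e G hG hf
    refine let1 (hG 0) (ih (fun j => G j.succ)
      (fun j => (hG j.succ).weaken id some (fun a j => rfl)) ?_)
    refine hf.weaken id (Sum.elim (fun i => Sum.inl (some i))
      (fun j => Fin.cases (Sum.inl none) (fun j => Sum.inr j) j)) (fun a j => ?_)
    cases j with
    | inl i => rfl
    | inr j => cases j using Fin.cases <;> rfl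

/-- Composition. -/
theorem comp {β κ : Type} [Fintype κ] {e' : β → κ → List Γ} {f' : β → List Γ} (hf : PF e' f')
    (φ : α → β) (h : ∀ j, PF e fun a => e' (φ a) j) : PF e fun a => f' (φ a) := by
  classical
  let q := Fintype.equivFin κ
  refine letFin (Fintype.card κ) (fun j a => e' (φ a) (q.symm j)) (fun j => h _) ?_
  exact hf.weaken φ (fun j => Sum.inr (q j)) (fun a j => by simp)

theorem tail (hf : PF e f) : PF e fun a => (f a).tail := by
  intro inp out base h1 h2 h3
  obtain ⟨q, U, hU, hq⟩ := hf inp base (base + 1) (fun i => by have := h1 i; omega) (by omega)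
    (fun i => (h1 i).ne)
  refine ⟨q.seq ((Prog.pop base).seq (shift base out (base + 1))),
    fun a => U a + (1 + ((f a).length * 8 + 2)),
    hU.add ((PB.const _ _).add ((hf.length.mul (PB.const _ _)).add (PB.const _ _))),
    fun a s hs hb => ?_⟩
  have r1 := hq a s hs (fun r hr => hb r (by omega))
  rw [hb base le_rfl, List.append_nil] at r1
  have r2 := Run.pop base (update s base (f a))
  rw [update_self, update_idem] at r2
  have r3 := shift_run h2.ne' (show base ≠ base + 1 by omega) (show out ≠ base + 1 by omega)
    (update s base (f a).tail) (by rw [update_of_ne (by omega), hb _ (by omega)])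
  refine ((r1.seq (r2.seq r3)).congr ?_).mono ?_
  · funext k
    by_cases h5 : k = out
    · subst h5; simp [update_of_ne h2.ne]
    · by_cases h4 : k = base
      · subst h4; simp [update_of_ne h5, hb k le_rfl]
      · simp [update_of_ne h4, update_of_ne h5]
  · simp

/-- Branch on the first symbol of a string. -/
theorem cases [Fintype Γ] (hg : PF e g) {F : Option Γ → α → List Γ} (hF : ∀ o, PF e (F o)) :
    PF e fun a => F (g a).head? a := by
  intro inp out base h1 h2 h3
  obtain ⟨q, U, hU, hq⟩ := hg inp base (base + 1) (fun i => by have := h1 i; omega) (by omega)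
    (fun i => (h1 i).ne)
  choose p T hT hp using fun o => hF o inp out (base + 1) (fun i => by have := h1 i; omega)
    (by omega) h3
  refine ⟨q.seq ((Prog.cas base p).seq (clear base)),
    fun a => U a + ((∑ o, T o a + 1) + ((g a).length * 4 + 1)),
    hU.add (((PB.sum _ fun o _ => hT o).add (PB.const _ _)).add
      ((hg.length.mul (PB.const _ _)).add (PB.const _ _))),
    fun a s hs hb => ?_⟩
  have r1 := hq a s hs (fun r hr => hb r (by omega))
  rw [hb base le_rfl, List.append_nil] at r1
  have r2 := hp (g a).head? a (update s base (g a))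
    (fun i => by simp [update_of_ne (h1 i).ne, hs])
    (fun r hr => by rw [update_of_ne (by omega), hb r (by omega)])
  have r2' : Run (Prog.cas base p) (update s base (g a)) _ _ :=
    Run.cas (by
      rw [update_self]
      exact r2.mono (Finset.single_le_sum (f := fun o => T o a) (fun _ _ => Nat.zero_le _)
        (Finset.mem_univ _)))
  have r3 := clear_run base
    (update (update s base (g a)) out (F (g a).head? a ++ update s base (g a) out))
  rw [update_of_ne h2.ne', update_self] at r3
  refine (r1.seq (r2'.seq r3)).congr ?_
  funext k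
  by_cases h4 : k = base
  · subst h4; simp [update_of_ne h2.ne', hb k le_rfl]
  · by_cases h5 : k = out
    · subst h5; simp [update_of_ne h4]
    · simp [update_of_ne h4, update_of_ne h5]

/-- Inputs of the step function of a recursion: the old inputs, the part of the list already
processed, and the current value. -/
def ext2 (e : α → ι → List Γ) : α × List Γ × List Γ → Option (Option ι) → List Γ :=
  fun x o => match o with
    | none => x.2.1
    | some none => x.2.2
    | some (some i) => e x.1 i

theorem sz_ext2 (e : α → ι → List Γ) (x : α × List Γ × List Γ) :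
    sz (ext2 e) x = x.2.1.length + (x.2.2.length + sz e x.1) := by
  simp [sz, ext2, Fintype.sum_option]

/-- Bounded recursion on a list. -/
theorem listRec [Fintype Γ] {y : α → List Γ} (hy : PF e y) (G : α → List Γ → List Γ)
    (h0 : PF e fun a => G a [])
    (H : Γ → α × List Γ × List Γ → List Γ) (hH : ∀ c, PF (ext2 e) (H c))
    (hG : ∀ a c P, G a (c :: P) = H c (a, P, G a P))
    (Bd : α → ℕ) (hBd : PB Bd (sz e)) (hb : ∀ a P, P <:+ y a → (G a P).length ≤ Bd a) :
    PF e fun a => G a (y a) := by
  intro inp out base h1 h2 h3
  obtain ⟨q, U, hU, hq⟩ := hy inp (base + 4) (base + 5) (fun i => by have := h1 i; omega)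
    (by omega) (fun i => by have := h1 i; omega)
  obtain ⟨q0, U0, hU0, hq0⟩ := h0 inp (base + 2) (base + 5) (fun i => by have := h1 i; omega)
    (by omega) (fun i => by have := h1 i; omega)
  choose p T hT hp using fun c => hH c
    (fun o => o.elim (base + 1) fun o => o.elim (base + 2) inp) (base + 3) (base + 5)
    (fun o => by
      rcases o with _ | _ | i
      · simp
      · simp
      · have := h1 i; simp; omega) (by omega)
    (fun o => by
      rcases o with _ | _ | i
      · simp
      · simp
      · have := h1 i; simp; omega)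
  obtain ⟨Pm, hmono, hPm, hPm'⟩ := (PB.sum Finset.univ fun c _ => hT c).exists_mono
  let body : Γ → Prog Γ := fun c => (p c).seq ((clear (base + 2)).seq
    ((shift (base + 3) (base + 2) (base + 4)).seq (Prog.push (base + 1) c)))
  let Tb : α → ℕ := fun a => Pm ((y a).length + (Bd a + sz e a)) + ((Bd a * 4 + 1) +
    ((Bd a * 8 + 2) + 1))
  have hTb : PB Tb (sz e) := (hPm' (hy.length.add (hBd.add (PB.refl _)))).add
    (((hBd.mul (PB.const _ _)).add (PB.const _ _)).add
      (((hBd.mul (PB.const _ _)).add (PB.const _ _)).add (PB.const _ _)))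
  refine ⟨q.seq ((move (base + 4) base).seq (q0.seq ((each base body).seq
      ((shift (base + 2) out (base + 3)).seq (clear (base + 1)))))),
    fun a => U a + (((y a).length * 4 + 1) + (U0 a + (((y a).length * (Tb a + 3) + 1) +
      ((Bd a * 8 + 2) + ((y a).length * 4 + 1))))),
    hU.add (((hy.length.mul (PB.const _ _)).add (PB.const _ _)).add (hU0.add
      (((hy.length.mul (hTb.add (PB.const _ _))).add (PB.const _ _)).add
        (((hBd.mul (PB.const _ _)).add (PB.const _ _)).add
          ((hy.length.mul (PB.const _ _)).add (PB.const _ _)))))),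
    fun a s hs hbs => ?_⟩
  let σ : List Γ → St Γ := fun l => update (update (update s base l) (base + 1)
    ((y a).drop l.length)) (base + 2) (G a ((y a).drop l.length))
  have hne : ∀ i k, inp i ≠ base + k := fun i k => by have := h1 i; omega
  have hne0 : ∀ i, inp i ≠ base := fun i => by have := h1 i; omega
  have r1 := hq a s hs (fun r hr => hbs r (by omega))
  rw [hbs _ (by omega), List.append_nil] at r1
  have r2 := move_run (show base + 4 ≠ base by omega) (update s (base + 4) (y a))
  have e2 : update s (base + 4) [] = s := update_eq_self_iff.2 (hbs (base + 4) (by omega)).symm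
  rw [update_self, update_idem, update_of_ne (by omega), hbs base le_rfl, List.append_nil,
    e2] at r2
  have r3 := hq0 a (update s base (y a).reverse) (fun i => by rw [update_of_ne (hne0 i), hs])
    (fun r hr => by rw [update_of_ne (by omega), hbs r (by omega)])
  have e3 : update (update s base (y a).reverse) (base + 2)
      (G a [] ++ update s base (y a).reverse (base + 2)) = σ (y a).reverse := by
    funext k
    simp only [σ, List.length_reverse, List.drop_length]
    by_cases h5 : k = base + 2
    · subst h5; simp [hbs (base + 2) (by omega)]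
    · by_cases h4 : k = base + 1
      · subst h4; simp [hbs (base + 1) (by omega)]
      · simp [update_of_ne h4, update_of_ne h5]
  rw [e3] at r3
  have r4 := each_run base body (Tb a) σ (y a).reverse (fun l => by simp [σ]) (fun c l hl => by
    obtain ⟨u, hu⟩ := hl
    have hy' : y a = l.reverse ++ c :: u.reverse := by
      rw [← List.reverse_reverse (y a), ← hu]; simp
    have d1 : (y a).drop (c :: l).length = u.reverse := by
      rw [hy']; simp [List.drop_append]
    have d2 : (y a).drop l.length = c :: u.reverse := by
      rw [hy']; simp [List.drop_append]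
    have b1 : (G a u.reverse).length ≤ Bd a := hb a _ ⟨l.reverse ++ [c], by simp [hy']⟩
    have b2 : (G a (c :: u.reverse)).length ≤ Bd a := hb a _ ⟨l.reverse, by simp [hy']⟩
    have b3 : u.reverse.length ≤ (y a).length := by rw [hy']; simp; omega
    set s0 := update (σ (c :: l)) base l with hs0
    have f1 : s0 (base + 1) = u.reverse := by simp [hs0, σ, ← d1]
    have f2 : s0 (base + 2) = G a u.reverse := by simp [hs0, σ, ← d1]
    have f3 : ∀ k, k ≠ base → k ≠ base + 1 → k ≠ base + 2 → s0 k = s k := fun k k0 k1 k2 => by
      simp [hs0, σ, update_of_ne k0, update_of_ne k1, update_of_ne k2]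
    have f0 : s0 base = l := by simp [hs0]
    have t1 := hp c (a, u.reverse, G a u.reverse) s0 (fun o => by
      rcases o with _ | _ | i
      · exact f1
      · exact f2
      · exact (f3 _ (hne0 i) (hne i 1) (hne i 2)).trans (hs i))
      (fun r hr => by rw [f3 r (by omega) (by omega) (by omega), hbs r (by omega)])
    rw [f3 (base + 3) (by omega) (by omega) (by omega), hbs _ (by omega), List.append_nil,
      ← hG] at t1
    have t2 := clear_run (base + 2) (update s0 (base + 3) (G a (c :: u.reverse)))
    rw [update_of_ne (by omega), f2] at t2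
    have t3 := shift_run (show base + 3 ≠ base + 2 by omega) (show base + 3 ≠ base + 4 by omega)
      (show base + 2 ≠ base + 4 by omega)
      (update (update s0 (base + 3) (G a (c :: u.reverse))) (base + 2) [])
      (by rw [update_of_ne (by omega), update_of_ne (by omega),
        f3 _ (by omega) (by omega) (by omega), hbs _ (by omega)])
    rw [update_of_ne (show base + 3 ≠ base + 2 by omega), update_self, update_self] at t3
    refine ((t1.seq (t2.seq (t3.seq (Run.push (base + 1) c _)))).congr ?_).mono ?_
    · funext k
      simp only [σ, d2]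
      by_cases k2 : k = base + 2
      · subst k2; simp
      · by_cases k1 : k = base + 1
        · subst k1; simp [f1]
        · by_cases k0 : k = base
          · subst k0; simp [f0]
          · by_cases k3 : k = base + 3
            · subst k3; simp [hbs (base + 3) (by omega)]
            · simp [update_of_ne k0, update_of_ne k1, update_of_ne k2, update_of_ne k3,
                f3 k k0 k1 k2]
    · have m1 : T c (a, u.reverse, G a u.reverse) ≤ Pm ((y a).length + (Bd a + sz e a)) := by
        refine le_trans ?_ ((hPm (a, u.reverse, G a u.reverse)).trans (hmono ?_))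
        · exact Finset.single_le_sum (f := fun c => T c (a, u.reverse, G a u.reverse))
            (fun _ _ => Nat.zero_le _) (Finset.mem_univ c)
        · rw [sz_ext2]; dsimp only; omega
      simp only [Tb]
      omega)
  rw [List.length_reverse] at r4
  have g2 : σ [] (base + 2) = G a (y a) := by simp [σ]
  have g1 : σ [] (base + 1) = y a := by simp [σ]
  have r5 := shift_run (show base + 2 ≠ out by omega) (show base + 2 ≠ base + 3 by omega)
    (show out ≠ base + 3 by omega) (σ []) (by simp [σ, hbs (base + 3) (by omega)])
  rw [g2] at r5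
  have r6 := clear_run (base + 1)
    (update (update (σ []) (base + 2) []) out (G a (y a) ++ σ [] out))
  rw [update_of_ne (by omega), update_of_ne (by omega), g1] at r6
  refine ((r1.seq (r2.seq (r3.seq (r4.seq (r5.seq r6))))).congr ?_).mono ?_
  · funext k
    have o0 : out ≠ base := by omega
    have o1 : out ≠ base + 1 := by omega
    have o2 : out ≠ base + 2 := by omega
    by_cases ko : k = out
    · subst ko; simp [σ, update_of_ne o0, update_of_ne o1, update_of_ne o2]
    · by_cases k1 : k = base + 1
      · subst k1; simp [update_of_ne ko, hbs (base + 1) (by omega)]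
      · by_cases k2 : k = base + 2
        · subst k2; simp [update_of_ne ko, hbs (base + 2) (by omega)]
        · by_cases k0 : k = base
          · subst k0; simp [σ, update_of_ne ko, hbs k le_rfl]
          · simp [σ, update_of_ne k0, update_of_ne k1, update_of_ne k2, update_of_ne ko]
  · have := hb a (y a) List.suffix_rfl
    beta_reduce
    omega

open Turing in
/-- A polynomial-time string function of one string is computed by a polynomial-time `FinTM2`. -/
theorem toTM2 [Fintype Γ] {β : Type} (ea : α → List Γ) (eb : β → List Γ) (F : α → β)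
    (h : PF (fun a (_ : Unit) => ea a) fun a => eb (F a)) :
    ∃ h : TM2ComputableInPolyTime ea eb F, ∀ k, Finite (h.tm.Γ k) := by
  obtain ⟨p, T, hT, hp⟩ := h (fun _ => 0) 1 2 (fun _ => by omega) (by omega) (fun _ => by omega)
  have hl : PB (fun a => (ea a).length) (sz fun a (_ : Unit) => ea a) :=
    pb_len (fun a (_ : Unit) => ea a) ()
  obtain ⟨c, d, hcd⟩ := hT.add ((hl.mul (PB.const 4 _)).add (PB.const 1 _))
  refine exists_tm2 ea eb F (p.seq (clear 0)) c d fun a => ?_
  have r1 := hp a (update (fun _ => []) 0 (ea a)) (fun _ => by simp)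
    (fun r hr => by rw [update_of_ne (by omega)])
  have r2 := clear_run 0 (update (update (fun _ => []) 0 (ea a)) 1
    (eb (F a) ++ update (fun _ : ℕ => ([] : List Γ)) 0 (ea a) 1))
  refine ((r1.seq r2).congr ?_).mono ?_
  · funext k
    by_cases k0 : k = 0
    · subst k0; simp
    · by_cases k1 : k = 1
      · subst k1; simp
      · simp [update_of_ne k0, update_of_ne k1]
  · have := hcd a
    simpa [sz] using this

end PF

end Vale.Agent.PT
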