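import Mathlib

/-! A small stack language with a step-counting big-step semantics, compiled to Mathlib's
`Turing.FinTM2`. -/

namespace Vale.Agent.PT

open Function

/-- Programs over numbered stacks holding symbols of `Γ`. -/
inductive Prog (Γ : Type) : Type
  | skip : Prog Γ
  | push (r : ℕ) (c : Γ) : Prog Γ
  | pop (r : ℕ) : Prog Γ
  | seq (p q : Prog Γ) : Prog Γ
  | cas (r : ℕ) (f : Option Γ → Prog Γ) : Prog Γ
  | loop (r : ℕ) (p : Prog Γ) : Prog Γ

abbrev St (Γ : Type) := ℕ → List Γ

variable {Γ : Type}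

inductive Exec : Prog Γ → St Γ → St Γ → ℕ → Prop
  | skip (s : St Γ) : Exec Prog.skip s s 1
  | push (r : ℕ) (c : Γ) (s : St Γ) : Exec (Prog.push r c) s (update s r (c :: s r)) 1
  | pop (r : ℕ) (s : St Γ) : Exec (Prog.pop r) s (update s r (s r).tail) 1
  | seq {p q : Prog Γ} {s s1 s2 : St Γ} {t1 t2 : ℕ} :
      Exec p s s1 t1 → Exec q s1 s2 t2 → Exec (Prog.seq p q) s s2 (t1 + t2)
  | cas {r : ℕ} {f : Option Γ → Prog Γ} {s s' : St Γ} {t : ℕ} :
      Exec (f (s r).head?) s s' t → Exec (Prog.cas r f) s s' (t + 1)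
  | loop0 {r : ℕ} {p : Prog Γ} {s : St Γ} : s r = [] → Exec (Prog.loop r p) s s 1
  | loop1 {r : ℕ} {p : Prog Γ} {s s1 s2 : St Γ} {t1 t2 : ℕ} : s r ≠ [] →
      Exec p s s1 t1 → Exec (Prog.loop r p) s1 s2 t2 → Exec (Prog.loop r p) s s2 (t1 + t2 + 1)

theorem Exec.length_le {p : Prog Γ} {s s' : St Γ} {t : ℕ} (h : Exec p s s' t) (r : ℕ) :
    (s' r).length ≤ (s r).length + t := by
  induction h with
  | skip s => omega
  | push r' c s =>
    by_cases h : r = r'
    · subst h; simp
    · simp [update_of_ne h]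
  | pop r' s =>
    by_cases h : r = r'
    · subst h; simp; omega
    · simp [update_of_ne h]
  | seq _ _ ih1 ih2 => omega
  | cas _ ih => omega
  | loop0 _ => omega
  | loop1 _ _ _ ih1 ih2 => omega

/-- Labels of the compiled program. -/
def Lab : Prog Γ → Type
  | Prog.skip => Unit
  | Prog.push _ _ => Unit
  | Prog.pop _ => Unit
  | Prog.seq p q => Lab p ⊕ Lab q
  | Prog.cas _ f => Option (Σ o : Option Γ, Lab (f o))
  | Prog.loop _ p => Option (Lab p)

theorem finite_lab [Finite Γ] : ∀ p : Prog Γ, Finite (Lab p)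
  | Prog.skip => inferInstanceAs (Finite Unit)
  | Prog.push _ _ => inferInstanceAs (Finite Unit)
  | Prog.pop _ => inferInstanceAs (Finite Unit)
  | Prog.seq p q => by
    haveI := finite_lab p
    haveI := finite_lab q
    exact inferInstanceAs (Finite (Lab p ⊕ Lab q))
  | Prog.cas _ f => by
    haveI := fun o => finite_lab (f o)
    exact inferInstanceAs (Finite (Option (Σ o : Option Γ, Lab (f o))))
  | Prog.loop _ p => by
    haveI := finite_lab p
    exact inferInstanceAs (Finite (Option (Lab p)))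

def entry : (p : Prog Γ) → Lab p
  | Prog.skip => ()
  | Prog.push _ _ => ()
  | Prog.pop _ => ()
  | Prog.seq p _ => Sum.inl (entry p)
  | Prog.cas _ _ => none
  | Prog.loop _ _ => none

/-- All stack numbers used are below `B`. -/
def Bd (B : ℕ) : Prog Γ → Prop
  | Prog.skip => True
  | Prog.push r _ => r < B
  | Prog.pop r => r < B
  | Prog.seq p q => Bd B p ∧ Bd B q
  | Prog.cas r f => r < B ∧ ∀ o, Bd B (f o)
  | Prog.loop r p => r < B ∧ Bd B p

theorem Bd.mono {B B' : ℕ} (h : B ≤ B') : ∀ p : Prog Γ, Bd B p → Bd B' p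
  | Prog.skip, _ => trivial
  | Prog.push _ _, hp => lt_of_lt_of_le hp h
  | Prog.pop _, hp => lt_of_lt_of_le hp h
  | Prog.seq p q, hp => ⟨Bd.mono h p hp.1, Bd.mono h q hp.2⟩
  | Prog.cas _ f, hp => ⟨lt_of_lt_of_le hp.1 h, fun o => Bd.mono h (f o) (hp.2 o)⟩
  | Prog.loop _ p, hp => ⟨lt_of_lt_of_le hp.1 h, Bd.mono h p hp.2⟩

theorem exists_bd [Finite Γ] : ∀ p : Prog Γ, ∃ B, Bd B p
  | Prog.skip => ⟨0, trivial⟩
  | Prog.push r _ => ⟨r + 1, Nat.lt_succ_self r⟩
  | Prog.pop r => ⟨r + 1, Nat.lt_succ_self r⟩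
  | Prog.seq p q => by
    obtain ⟨a, ha⟩ := exists_bd p
    obtain ⟨b, hb⟩ := exists_bd q
    exact ⟨max a b, Bd.mono (le_max_left _ _) _ ha, Bd.mono (le_max_right _ _) _ hb⟩
  | Prog.cas r f => by
    choose b hb using fun o => exists_bd (f o)
    obtain ⟨M, hM⟩ := (Set.finite_range b).bddAbove
    refine ⟨max (r + 1) M, lt_of_lt_of_le (Nat.lt_succ_self r) (le_max_left _ _), fun o => ?_⟩
    exact Bd.mono (le_trans (hM ⟨o, rfl⟩) (le_max_right _ _)) _ (hb o)
  | Prog.loop r p => by
    obtain ⟨a, ha⟩ := exists_bd p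
    exact ⟨max (r + 1) a, lt_of_lt_of_le (Nat.lt_succ_self r) (le_max_left _ _),
      Bd.mono (le_max_right _ _) _ ha⟩

section compile

open Turing

variable {B : ℕ} {Λ : Type}

abbrev Stm (Γ : Type) (B : ℕ) (Λ : Type) := TM2.Stmt (fun _ : Fin (B + 1) => Γ) Λ (Option Γ)

abbrev Cf (Γ : Type) (B : ℕ) (Λ : Type) := TM2.Cfg (fun _ : Fin (B + 1) => Γ) Λ (Option Γ)

def reg (B r : ℕ) : Fin (B + 1) := if h : r < B + 1 then ⟨r, h⟩ else 0

def jump (o : Option Λ) : Stm Γ B Λ :=
  TM2.Stmt.load (fun _ => none)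
    (match o with
      | none => TM2.Stmt.halt
      | some l => TM2.Stmt.goto fun _ => l)

theorem stepAux_jump (o : Option Λ) (v : Option Γ) (S : Fin (B + 1) → List Γ) :
    TM2.stepAux (jump o : Stm Γ B Λ) v S = ⟨o, none, S⟩ := by
  cases o <;> simp [jump]

def code (B : ℕ) : (p : Prog Γ) → (Lab p → Λ) → Option Λ → Lab p → Stm Γ B Λ
  | Prog.skip, _, ex, _ => jump ex
  | Prog.push r c, _, ex, _ => TM2.Stmt.push (reg B r) (fun _ => c) (jump ex)
  | Prog.pop r, _, ex, _ => TM2.Stmt.pop (reg B r) (fun v _ => v) (jump ex)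
  | Prog.seq p q, emb, _, Sum.inl l =>
      code B p (fun x => emb (Sum.inl x)) (some (emb (Sum.inr (entry q)))) l
  | Prog.seq _ q, emb, ex, Sum.inr l => code B q (fun x => emb (Sum.inr x)) ex l
  | Prog.cas r f, emb, _, none =>
      TM2.Stmt.peek (reg B r) (fun _ o => o) (TM2.Stmt.goto fun o => emb (some ⟨o, entry (f o)⟩))
  | Prog.cas _ f, emb, ex, some ⟨o, l⟩ => code B (f o) (fun x => emb (some ⟨o, x⟩)) ex l
  | Prog.loop r p, emb, ex, none =>
      TM2.Stmt.peek (reg B r) (fun _ o => o)
        (TM2.Stmt.branch (fun o => o.isSome) (TM2.Stmt.goto fun _ => emb (some (entry p)))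
          (jump ex))
  | Prog.loop _ p, emb, _, some l => code B p (fun x => emb (some x)) (some (emb none)) l

def res (B : ℕ) (s : St Γ) : Fin (B + 1) → List Γ := fun k => s k.val

theorem res_reg {r : ℕ} (h : r < B + 1) (s : St Γ) : res B s (reg B r) = s r := by
  simp [res, reg, h]

theorem res_update {r : ℕ} (h : r < B + 1) (s : St Γ) (l : List Γ) :
    res B (update s r l) = update (res B s) (reg B r) l := by
  funext k
  by_cases hk : k = reg B r
  · subst hk
    rw [update_self, res_reg h, update_self]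
  · rw [update_of_ne hk]
    have : k.val ≠ r := by
      intro h'
      apply hk
      simp only [reg, h, dif_pos]
      exact Fin.ext h'
    simp [res, update_of_ne this]

theorem iter_one (M : Λ → Stm Γ B Λ) (l : Λ) (v : Option Γ) (S : Fin (B + 1) → List Γ) :
    (flip bind (TM2.step M))^[1] (some (⟨some l, v, S⟩ : Cf Γ B Λ)) =
      some (TM2.stepAux (M l) v S) := rfl

theorem simulate (M : Λ → Stm Γ B Λ) {p : Prog Γ} {s s' : St Γ} {t : ℕ} (h : Exec p s s' t) :
    Bd (B + 1) p → ∀ (emb : Lab p → Λ) (ex : Option Λ), (∀ l, M (emb l) = code B p emb ex l) →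
      ∀ v : Option Γ, (flip bind (TM2.step M))^[t]
        (some (⟨some (emb (entry p)), v, res B s⟩ : Cf Γ B Λ)) = some ⟨ex, none, res B s'⟩ := by
  induction h with
  | skip s =>
    intro _ emb ex hM v
    rw [iter_one, hM]
    simp only [code, stepAux_jump]
  | push r c s =>
    intro hb emb ex hM v
    rw [iter_one, hM]
    simp only [code, TM2.stepAux, stepAux_jump, res_update hb, res_reg hb]
  | pop r s =>
    intro hb emb ex hM v
    rw [iter_one, hM]
    simp only [code, TM2.stepAux, stepAux_jump, res_update hb, res_reg hb]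
  | @seq p q s s1 s2 t1 t2 _ _ ih1 ih2 =>
    intro hb emb ex hM v
    rw [add_comm t1 t2, iterate_add_apply]
    have h1 := ih1 hb.1 (fun x => emb (Sum.inl x)) (some (emb (Sum.inr (entry q))))
      (fun l => hM (Sum.inl l)) v
    have h2 := ih2 hb.2 (fun x => emb (Sum.inr x)) ex (fun l => hM (Sum.inr l)) none
    exact (congrArg _ h1).trans h2
  | @cas r f s s' t _ ih =>
    intro hb emb ex hM v
    rw [iterate_add_apply, iter_one, hM]
    have h1 := ih (hb.2 _) (fun x => emb (some ⟨_, x⟩)) ex (fun l => hM (some ⟨_, l⟩)) (s r).head?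
    simp only [entry, code, TM2.stepAux]
    rw [res_reg hb.1]
    exact h1
  | @loop0 r p s hs =>
    intro hb emb ex hM v
    rw [iter_one, hM]
    simp only [entry, code, TM2.stepAux, res_reg hb.1, hs, List.head?_nil, Option.isSome_none,
      cond_false, stepAux_jump]
  | @loop1 r p s s1 s2 t1 t2 hs _ _ ih1 ih2 =>
    intro hb emb ex hM v
    rw [iterate_add_apply, iter_one, hM]
    have h1 := ih1 hb.2 (fun x => emb (some x)) (some (emb none)) (fun l => hM (some l)) (s r).head?
    have h2 := ih2 hb emb ex hM none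
    have h3 : ((s r).head?).isSome = true := by
      cases h : s r with
      | nil => exact absurd h hs
      | cons a l => rfl
    simp only [entry, code, TM2.stepAux, res_reg hb.1, h3, cond_true]
    rw [add_comm t1 t2, iterate_add_apply]
    exact (congrArg _ h1).trans h2

end compile

open Turing in
/-- A program that turns the input (on stack 0) into the output (on stack 1) and leaves all other
stacks empty, within polynomially many steps, gives a polynomial-time `FinTM2`. -/
theorem exists_tm2 [Fintype Γ] {α β : Type} (ea : α → List Γ) (eb : β → List Γ) (f : α → β)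
    (p : Prog Γ) (c d : ℕ)
    (h : ∀ a, ∃ t ≤ c * ((ea a).length + 1) ^ d,
      Exec p (update (fun _ => []) 0 (ea a)) (update (fun _ => []) 1 (eb (f a))) t) :
    ∃ h : TM2ComputableInPolyTime ea eb f, ∀ k, Finite (h.tm.Γ k) := by
  classical
  obtain ⟨B0, hB0⟩ := exists_bd p
  have hB : Bd ((B0 + 1) + 1) p := Bd.mono (by omega) p hB0
  haveI := finite_lab p
  letI : Fintype (Lab p) := Fintype.ofFinite _
  let tm : FinTM2 :=
    { K := Fin (B0 + 1 + 1)
      k₀ := 0
      k₁ := 1
      Γ := fun _ => Γ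
      Λ := Lab p
      main := entry p
      σ := Option Γ
      initialState := none
      m := code (B0 + 1) p id none }
  choose t ht hx using h
  refine ⟨⟨⟨tm, Equiv.refl _, Equiv.refl _⟩,
    Polynomial.C c * (Polynomial.X + 1) ^ d, fun a => ⟨⟨t a, ?_⟩, ?_⟩⟩,
    fun _ => (inferInstance : Finite Γ)⟩
  · have := simulate (B := B0 + 1) (code (B0 + 1) p id none) (hx a) hB id none (fun _ => rfl) none
    have e1 : initList tm (List.map (Equiv.refl Γ).invFun (ea a)) =
        (⟨some (entry p), none, res (B0 + 1) (update (fun _ => []) 0 (ea a))⟩ :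
          Cf Γ (B0 + 1) (Lab p)) := by
      simp only [initList]
      congr 1
      funext k
      by_cases hk : k = (0 : Fin (B0 + 1 + 1))
      · subst hk
        simp [res, tm]
      · have : k.val ≠ 0 := fun h => hk (Fin.ext h)
        simp [res, tm, hk, update_of_ne this]
    have e2 : haltList tm (List.map (Equiv.refl Γ).invFun (eb (f a))) =
        (⟨none, none, res (B0 + 1) (update (fun _ => []) 1 (eb (f a)))⟩ :
          Cf Γ (B0 + 1) (Lab p)) := by
      simp only [haltList]
      congr 1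
      funext k
      by_cases hk : k = (1 : Fin (B0 + 1 + 1))
      · subst hk
        simp [res, tm]
      · have : k.val ≠ 1 := fun h => hk (Fin.ext (by simpa using h))
        simp [res, tm, hk, update_of_ne this]
    change (flip bind (TM2.step (code (B0 + 1) p id none)))^[t a]
      (some (initList tm (List.map (Equiv.refl Γ).invFun (ea a)))) =
      some (haltList tm (List.map (Equiv.refl Γ).invFun (eb (f a))))
    rw [e1, e2]
    exact this
  · simpa using ht a

end Vale.Agent.PT
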